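import Vale.Agent.P352.BW.H649.LcDefs
import Vale.Agent.P352.BW.H268.Grp1

namespace Vale.Agent.P352.BW

open GF H246 H496 H755 H15
open UniformSpace (Completion)

variable {D : Type*} [NormedAddCommGroup D] [InnerProductSpace ℂ D]

/-- The algebra of the forward light cone is generated by the algebras of its parts `a·z < t`: its
elements commute with all operators that commute with the algebras of these parts. -/
def Gen (𝒜 : Set V → VonNeumannAlgebra (Completion D)) : Prop :=
  ∀ a X Y, IsNull a → X ∈ 𝒜 Fc → (∀ t, 0 < t → Y ∈ (𝒜 (Ct a t)).commutant) → X * Y = Y * X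

end Vale.Agent.P352.BW
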