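import Vale.Agent.P352.BW.H820.Tk
import Vale.Agent.P352.BW.H234.Wd
import Vale.Agent.P352.BW.H649.Lc

/-!
# P352 BW (helper299): the null deformations map the algebra of the forward light cone onto the
algebras of the cut cones

The first half is H728/Geo (helper728), for both signs of the inclusion.
-/

set_option linter.all false

noncomputable section

open MeasureTheory Filter Topology
open scoped ComplexConjugate InnerProductSpace BoundedContinuousFunction

namespace Vale.Agent.P352.BW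

open Vale.Agent.P132 (ModData expB jconj)
open UniformSpace (Completion)
open GF H246 H496 H755 H15

namespace H299

section abs

variable {H : Type*} [NormedAddCommGroup H] [InnerProductSpace ℂ H] [CompleteSpace H]

/-- a unitary group that intertwines the modular unitaries of `M` and `N` -/
structure Hq {M N : VonNeumannAlgebra H} {ξ : H} (E : ModData M ξ) (E' : ModData N ξ)
    (S : ℝ → H →L[ℂ] H) : Prop where
  zero : S 0 = 1
  add : ∀ c c', S (c + c') = S c * S c'
  star : ∀ c, star (S c) = S (-c)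
  cont : ∀ v, Continuous fun c => S c v
  xi : ∀ c, S c ξ = ξ
  eu : ∀ r : ℝ, -1 < r → ∃ t : ℝ, E.U t = S r * E'.U t
  int : ∀ t : ℝ, S 1 * E.U t = E'.U t * S 1

variable {M N : VonNeumannAlgebra H} {ξ : H} {E : ModData M ξ} {E' : ModData N ξ}
  {S : ℝ → H →L[ℂ] H} (hs : Hq E E' S)
include hs

theorem s_mul (r : ℝ) : S r * S (-r) = 1 := by rw [← hs.add, add_neg_cancel, hs.zero]

theorem s_mul' (r : ℝ) : S (-r) * S r = 1 := by rw [← hs.add, neg_add_cancel, hs.zero]

theorem s_adj (r : ℝ) (x y : H) : ⟪x, S r y⟫_ℂ = ⟪S (-r) x, y⟫_ℂ := by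
  have h := ContinuousLinearMap.adjoint_inner_left (S r) y x
  rw [← h, ← ContinuousLinearMap.star_eq_adjoint, hs.star]

/-- the algebra `N`, transported by `S r`, `r > -1`, is contained in `M` -/
theorem mem_of (hle : ∀ X ∈ N, X ∈ M) {Y : H →L[ℂ] H} (hY : Y ∈ N) {r : ℝ} (hr : -1 < r) :
    S r * Y * S (-r) ∈ M := by
  obtain ⟨t, h2⟩ := hs.eu r hr
  have h3 : E.U (-t) = E'.U (-t) * S (-r) := by
    rw [← E.star_U, h2, star_mul, hs.star, E'.star_U]
  have h4 : E.sg t (E'.sg (-t) Y) ∈ M := E.sg_mem (hle _ (E'.sg_mem hY (-t))) t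
  have h5 : E.sg t (E'.sg (-t) Y) = S r * Y * S (-r) := by
    change E.U t * (E'.U (-t) * Y * E'.U (- -t)) * E.U (-t) = _
    rw [h2, h3, neg_neg]
    calc S r * E'.U t * (E'.U (-t) * Y * E'.U t) * (E'.U (-t) * S (-r)) =
        S r * (E'.U t * E'.U (-t)) * Y * (E'.U t * E'.U (-t)) * S (-r) := by
          simp only [mul_assoc]
      _ = _ := by rw [E'.U_mul_U_neg, mul_one, mul_one]
  rw [← h5]
  exact h4

/-- the algebra `N`, transported by `S (-1)`, is contained in `M` -/
theorem mem_neg (hle : ∀ X ∈ N, X ∈ M) {Y : H →L[ℂ] H} (hY : Y ∈ N) :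
    S (-1) * Y * S 1 ∈ M := by
  refine H234.mem_cc fun Z hZ => ?_
  have hcomm : ∀ r : ℝ, -1 < r → ∀ z w : H, ⟪S (-r) (star Z w), Y (S (-r) z)⟫_ℂ =
      ⟪S (-r) w, Y (S (-r) (Z z))⟫_ℂ := by
    intro r hr z w
    have h1 := mem_of hs hle hY hr
    have h2 := VonNeumannAlgebra.mem_commutant_iff.1 hZ _ h1
    have h3 : S r (Y (S (-r) (Z z))) = Z (S r (Y (S (-r) z))) :=
      congrArg (fun T : H →L[ℂ] H => T z) h2
    rw [← s_adj hs, ← s_adj hs, h3]
    have h4 := ContinuousLinearMap.adjoint_inner_left Z (S r (Y (S (-r) z))) w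
    rw [← ContinuousLinearMap.star_eq_adjoint] at h4
    exact h4
  have hc1 : ∀ z w : H, Continuous fun r : ℝ => ⟪S (-r) (star Z w), Y (S (-r) z)⟫_ℂ :=
    fun z w => ((hs.cont _).comp continuous_neg).inner
      (Y.continuous.comp ((hs.cont _).comp continuous_neg))
  have hc2 : ∀ z w : H, Continuous fun r : ℝ => ⟪S (-r) w, Y (S (-r) (Z z))⟫_ℂ :=
    fun z w => ((hs.cont _).comp continuous_neg).inner
      (Y.continuous.comp ((hs.cont _).comp continuous_neg))
  have hlim : ∀ z w : H, ⟪S (- -1) (star Z w), Y (S (- -1) z)⟫_ℂ =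
      ⟪S (- -1) w, Y (S (- -1) (Z z))⟫_ℂ := by
    intro z w
    have h1 : Tendsto (fun r : ℝ => ⟪S (-r) (star Z w), Y (S (-r) z)⟫_ℂ) (𝓝[>] (-1))
        (𝓝 ⟪S (- -1) (star Z w), Y (S (- -1) z)⟫_ℂ) :=
      ((hc1 z w).tendsto (-1)).mono_left nhdsWithin_le_nhds
    have h2 : Tendsto (fun r : ℝ => ⟪S (-r) w, Y (S (-r) (Z z))⟫_ℂ) (𝓝[>] (-1))
        (𝓝 ⟪S (- -1) w, Y (S (- -1) (Z z))⟫_ℂ) :=
      ((hc2 z w).tendsto (-1)).mono_left nhdsWithin_le_nhds
    refine tendsto_nhds_unique h1 (h2.congr' ?_)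
    filter_upwards [self_mem_nhdsWithin] with r hr
    exact (hcomm r hr z w).symm
  ext z
  refine ext_inner_left ℂ fun w => ?_
  show ⟪w, Z (S (-1) (Y (S 1 z)))⟫_ℂ = ⟪w, S (-1) (Y (S 1 (Z z)))⟫_ℂ
  have h4 := ContinuousLinearMap.adjoint_inner_left Z (S (-1) (Y (S 1 z))) w
  rw [← ContinuousLinearMap.star_eq_adjoint] at h4
  have h5 := hlim z w
  rw [neg_neg] at h5
  rw [← h4, s_adj hs, s_adj hs, neg_neg]
  exact h5

/-- **The unitary group of a half-sided modular inclusion maps `M` onto `N`.** -/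
theorem img (tk : TKStmt H) (hle : ∀ X ∈ N, X ∈ M) (X : H →L[ℂ] H) :
    X ∈ M ↔ S 1 * X * S (-1) ∈ N := by
  have hinv : ∀ X : H →L[ℂ] H, S (-1) * (S 1 * X * S (-1)) * S 1 = X := by
    intro X
    have h1 := s_mul' hs 1
    calc S (-1) * (S 1 * X * S (-1)) * S 1 = (S (-1) * S 1) * X * (S (-1) * S 1) := by
          simp only [mul_assoc]
      _ = X := by rw [h1, one_mul, mul_one]
  constructor
  · -- the transported algebra is invariant under the modular group
    set C : Set (H →L[ℂ] H) := {Z | ∃ Y ∈ N.commutant, Z = S (-1) * Y * S 1} with hC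
    have hCs : ∀ Z ∈ C, star Z ∈ C := by
      rintro _ ⟨Y, hY, rfl⟩
      refine ⟨star Y, star_mem hY, ?_⟩
      rw [star_mul, star_mul, hs.star, hs.star, neg_neg, mul_assoc]
    set M0 : VonNeumannAlgebra H := H234.comm C hCs with hM0
    have hmem : ∀ X : H →L[ℂ] H, X ∈ M0 ↔ S 1 * X * S (-1) ∈ N := by
      intro X
      rw [hM0, H234.mem_comm]
      constructor
      · intro h
        refine H234.mem_cc fun Y hY => ?_
        have h1 := h _ ⟨Y, hY, rfl⟩
        have h2 := congrArg (fun T : H →L[ℂ] H => S 1 * T * S (-1)) h1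
        have e := s_mul hs 1
        calc Y * (S 1 * X * S (-1)) = (S 1 * S (-1)) * Y * (S 1 * X * S (-1)) := by
              rw [e, one_mul]
          _ = S 1 * (S (-1) * Y * S 1 * X) * S (-1) := by simp only [mul_assoc]
          _ = S 1 * (X * (S (-1) * Y * S 1)) * S (-1) := h2
          _ = S 1 * X * S (-1) * Y * (S 1 * S (-1)) := by simp only [mul_assoc]
          _ = _ := by rw [e, mul_one]
      · rintro h _ ⟨Y, hY, rfl⟩
        have h1 := VonNeumannAlgebra.mem_commutant_iff.1 hY _ h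
        have e := s_mul' hs 1
        calc S (-1) * Y * S 1 * X = S (-1) * Y * S 1 * X * (S (-1) * S 1) := by
              rw [e, mul_one]
          _ = S (-1) * (Y * (S 1 * X * S (-1))) * S 1 := by simp only [mul_assoc]
          _ = S (-1) * (S 1 * X * S (-1) * Y) * S 1 := by rw [h1]
          _ = (S (-1) * S 1) * X * (S (-1) * Y * S 1) := by simp only [mul_assoc]
          _ = _ := by rw [e, one_mul]
    have hle0 : ∀ X ∈ M0, X ∈ M := by
      intro X hX
      have h1 := mem_neg hs hle ((hmem X).1 hX)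
      rwa [hinv] at h1
    have hmod : ∀ t, ∀ X ∈ M0, E.sg t X ∈ M0 := by
      intro t X hX
      rw [hmem] at hX ⊢
      have h1 : S 1 * E.U t = E'.U t * S 1 := hs.int t
      have h2 : E.U (-t) * S (-1) = S (-1) * E'.U (-t) := by
        have := congrArg star h1
        rw [star_mul, star_mul, E.star_U, E'.star_U, hs.star] at this
        exact this
      have h3 : S 1 * E.sg t X * S (-1) = E'.sg t (S 1 * X * S (-1)) := by
        change S 1 * (E.U t * X * E.U (-t)) * S (-1) = E'.U t * (S 1 * X * S (-1)) * E'.U (-t)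
        calc S 1 * (E.U t * X * E.U (-t)) * S (-1) = (S 1 * E.U t) * X * (E.U (-t) * S (-1)) := by
              simp only [mul_assoc]
          _ = (E'.U t * S 1) * X * (S (-1) * E'.U (-t)) := by rw [h1, h2]
          _ = _ := by simp only [mul_assoc]
      rw [h3]
      exact E'.sg_mem hX t
    have hcyc : Dense {z | ∃ X ∈ M0, X ξ = z} := by
      have h1 := E'.cyc
      have hsurj : Function.Surjective (S (-1)) := fun z => ⟨S 1 z, by
        have := congrArg (fun T : H →L[ℂ] H => T z) (s_mul' hs 1)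
        exact this⟩
      have h2 := hsurj.denseRange.dense_image (S (-1)).continuous h1
      refine h2.mono ?_
      rintro _ ⟨_, ⟨Y, hY, rfl⟩, rfl⟩
      refine ⟨S (-1) * Y * S 1, ?_, ?_⟩
      · rw [hmem]
        have e := s_mul hs 1
        have : S 1 * (S (-1) * Y * S 1) * S (-1) = Y := by
          calc S 1 * (S (-1) * Y * S 1) * S (-1) = (S 1 * S (-1)) * Y * (S 1 * S (-1)) := by
                simp only [mul_assoc]
            _ = Y := by rw [e, one_mul, mul_one]
        rw [this]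
        exact hY
      · show S (-1) (Y (S 1 ξ)) = S (-1) (Y ξ)
        rw [hs.xi]
    intro hX
    exact (hmem X).1 ((tk M M0 ξ E hmod hcyc).1 hle0 X hX)
  · intro h
    have h1 := mem_neg hs hle h
    rwa [hinv] at h1

end abs

/-! ## the net -/

section net

variable {D : Type*} [NormedAddCommGroup D] [InnerProductSpace ℂ D] {Q : Theory D}
  {A : (V → V) → D → D} {𝒜 : Set V → VonNeumannAlgebra (Completion D)}
  {S : V → ℝ → Completion D →L[ℂ] Completion D}

theorem hq (h : Grp0 Q 𝒜 S) {a : V} (ha : IsNull a) {t : ℝ} (ht : 0 < t)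
    (E : ModData (𝒜 Fc) (om Q))
    (hE : ∀ s z, E.U s z = Ue Q (Real.exp (-(2 * Real.pi * s))) GF.one 0 z)
    (E' : ModData (𝒜 (Ct a t)) (om Q))
    (hmod : ∀ s z, E'.U s z = S a ((Real.exp (2 * Real.pi * s) - 1) / (2 * t)) (E.U s z)) :
    Hq E E' (fun r => S a (-(r / (2 * t)))) := by
  have hcov : ∀ s c z, E.U s (S a c z) = S a (Real.exp (2 * Real.pi * s) * c) (E.U s z) := by
    intro s c z
    have hsim : sim 1 GF.one 0 a = (1 : ℝ) • a := by
      rw [Lc.sim_dil]
    rw [hE, hE, h.cov _ _ 1 a a c z (Real.exp_pos _) one_pos isLor_one ha ha hsim, Real.exp_neg,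
      one_div, inv_inv]
  refine ⟨?_, fun c c' => ?_, fun c => ?_, fun v => ?_, fun c => ?_, fun r hr => ?_, fun s => ?_⟩
  · show S a (-(0 / (2 * t))) = 1
    rw [zero_div, neg_zero, h.zero a ha]
  · show S a (-((c + c') / (2 * t))) = S a (-(c / (2 * t))) * S a (-(c' / (2 * t)))
    rw [← h.add a _ _ ha]
    congr 1
    ring
  · show star (S a (-(c / (2 * t)))) = S a (-(-c / (2 * t)))
    ext z
    refine ext_inner_left ℂ fun w => ?_
    rw [ContinuousLinearMap.star_eq_adjoint, ContinuousLinearMap.adjoint_inner_right]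
    have h1 := h.inn a (-(-c / (2 * t))) (S a (-(c / (2 * t))) w) z ha
    have h2 : S a (-(-c / (2 * t))) (S a (-(c / (2 * t))) w) = w := by
      have h3 : S a (-(-c / (2 * t))) * S a (-(c / (2 * t))) = 1 := by
        rw [← h.add a _ _ ha, show -(-c / (2 * t)) + -(c / (2 * t)) = 0 by ring, h.zero a ha]
      exact congrArg (fun T : Completion D →L[ℂ] Completion D => T w) h3
    rw [h2] at h1
    exact h1.symm
  · exact (h.cont a v ha).comp (by fun_prop)
  · exact h.vac a _ ha
  · refine ⟨Real.log (1 + r) / (2 * Real.pi), ?_⟩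
    ext z
    show E.U _ z = S a (-(r / (2 * t))) (E'.U _ z)
    have e1 : Real.exp (2 * Real.pi * (Real.log (1 + r) / (2 * Real.pi))) = 1 + r := by
      rw [mul_div_cancel₀ _ (by positivity), Real.exp_log (by linarith)]
    rw [hmod, e1]
    have h3 : S a (-(r / (2 * t))) * S a ((1 + r - 1) / (2 * t)) = 1 := by
      rw [← h.add a _ _ ha, show -(r / (2 * t)) + (1 + r - 1) / (2 * t) = 0 by ring,
        h.zero a ha]
    exact (congrArg (fun T : Completion D →L[ℂ] Completion D => T (E.U _ z)) h3).symm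
  · ext z
    show S a (-(1 / (2 * t))) (E.U s z) = E'.U s (S a (-(1 / (2 * t))) z)
    rw [hmod, hcov]
    have h3 : S a ((Real.exp (2 * Real.pi * s) - 1) / (2 * t)) *
        S a (Real.exp (2 * Real.pi * s) * -(1 / (2 * t))) = S a (-(1 / (2 * t))) := by
      rw [← h.add a _ _ ha]
      congr 1
      ring
    exact (congrArg (fun T : Completion D →L[ℂ] Completion D => T (E.U s z)) h3).symm

/-- **The null deformations map the algebra of the forward light cone onto the algebra of the cut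
cone.** -/
theorem geoC (N : LNm Q A 𝒜) (h : Grp0 Q 𝒜 S) {a : V} (ha : IsNull a) {t : ℝ} (ht : 0 < t)
    (E : ModData (𝒜 Fc) (om Q))
    (hE : ∀ s z, E.U s z = Ue Q (Real.exp (-(2 * Real.pi * s))) GF.one 0 z)
    (E' : ModData (𝒜 (Ct a t)) (om Q))
    (hmod : ∀ s z, E'.U s z = S a ((Real.exp (2 * Real.pi * s) - 1) / (2 * t)) (E.U s z))
    (X : Completion D →L[ℂ] Completion D) :
    X ∈ 𝒜 Fc ↔ S a (-(1 / (2 * t))) * X * S a (1 / (2 * t)) ∈ 𝒜 (Ct a t) := by
  have h1 := img (hq h ha ht E hE E' hmod) tk (N.ct_fc a t) X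
  have e : -(-1 / (2 * t)) = 1 / (2 * t) := by ring
  simp only [e] at h1
  exact h1

end net

end H299

end Vale.Agent.P352.BW

end
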