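import Vale.Agent.P352.BW.H728.Cw
import Vale.Agent.P352.BW.H299.GenDefs

/-!
# P352: limits of modular groups and separating vectors (helper299)

The modular unitaries of an increasing sequence of von Neumann algebras with the cyclic and separating
vector `ξ` converge strongly to a continuous family: then `ξ` is separating for the algebra that they
generate.
-/

set_option linter.all false

noncomputable section

open MeasureTheory Filter Topology
open scoped ComplexConjugate InnerProductSpace BoundedContinuousFunction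

namespace Vale.Agent.P352.BW.H299

open Vale.Agent.P132 (ModData expB reflB jconj)
open Vale.Agent.P352.BW.Cv

section abs

variable {H : Type*} [NormedAddCommGroup H] [InnerProductSpace ℂ H] [CompleteSpace H]
variable {ξ : H} {N : ℕ → VonNeumannAlgebra H} {E : ∀ n, ModData (N n) ξ} {V : ℝ → H → H}

/-- the situation -/
structure Si (N : ℕ → VonNeumannAlgebra H) (E : ∀ n, ModData (N n) ξ) (V : ℝ → H → H) : Prop where
  up : ∀ n m, n ≤ m → ∀ x ∈ N n, x ∈ N m
  lim : ∀ s v, Tendsto (fun n => (E n).U s v) atTop (𝓝 (V s v))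
  vc : ∀ v, Continuous fun s => V s v

lemma Si.nV (h : Si N E V) (s : ℝ) (v : H) : ‖V s v‖ = ‖v‖ := by
  refine tendsto_nhds_unique (h.lim s v).norm ?_
  simp only [ModData.norm_U]
  exact tendsto_const_nhds

lemma Si.V_zero (h : Si N E V) (x : H) : V 0 x = x := by
  refine tendsto_nhds_unique (h.lim 0 x) ?_
  have e : ∀ n, (E n).U 0 x = x := fun n => by
    rw [ModData.U]
    have : (expB 0 : ℝ →ᵇ ℂ) = 1 := by
      ext y
      simp
    rw [this, map_one]
    rfl
  simp only [e]
  exact tendsto_const_nhds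

/-- the limit of the functional calculus -/
lemma Si.conv (h : Si N E V) (f : ℝ →ᵇ ℂ) {G : ℝ → ℂ} (hGc : Continuous G)
    (hGi : Integrable G) (c : ℝ)
    (hinv : ∀ x, f x = ∫ w, G w * Complex.exp (Complex.I * ((c * w * x : ℝ) : ℂ))) (v : H) :
    Tendsto (fun n => (E n).Th f v) atTop (𝓝 (∫ w, G w • V (c * w) v)) := by
  have e : (fun n => (E n).Th f v) = fun n => ∫ w, G w • (E n).U (c * w) v := by
    funext n
    exact th_int (E n) f hGc hGi c hinv v
  rw [e]
  refine tendsto_integral_of_dominated_convergence (fun w => ‖G w‖ * ‖v‖) ?_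
    (hGi.norm.mul_const _) ?_ ?_
  · intro n
    exact (hGc.smul ((E n).continuous_U_comp continuous_const (by fun_prop))).aestronglyMeasurable
  · intro n
    refine Eventually.of_forall fun w => ?_
    rw [norm_smul, ModData.norm_U]
  · refine Eventually.of_forall fun w => ?_
    exact (h.lim _ v).const_smul _

lemma Si.cv (h : Si N E V) (k : TF) (v : H) : ∃ w, Tendsto (fun n => (E n).Th k.B v) atTop (𝓝 w) := by
  obtain ⟨G, h1, h2, h3⟩ := k.four
  exact ⟨_, h.conv k.B h1 h2 (2 * Real.pi) h3 v⟩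

/-- tightness -/
lemma Si.tight (h : Si N E V) (k : TF) (hk : k.f 0 = 1) (v : H) {ε : ℝ} (hε : 0 < ε) :
    ∃ δ : ℝ, ∃ hδ : δ ≠ 0, ∀ᶠ n in atTop, ‖(E n).Th (k.sc δ hδ).B v - v‖ < ε := by
  obtain ⟨G, hGc, hGi, hG⟩ := k.four
  have hn : ∀ n : ℕ, (1 / ((n : ℝ) + 1)) ≠ 0 := fun n => by positivity
  have hε0 : Tendsto (fun n : ℕ => 1 / ((n : ℝ) + 1)) atTop (𝓝 0) :=
    tendsto_one_div_add_atTop_nhds_zero_nat
  have hlim : Tendsto (fun n : ℕ => ∫ w, G w • V (2 * Real.pi * (1 / ((n : ℝ) + 1)) * w) v) atTop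
      (𝓝 (∫ w, G w • v)) := by
    refine tendsto_integral_of_dominated_convergence (fun w => ‖G w‖ * ‖v‖) ?_
      (hGi.norm.mul_const _) ?_ ?_
    · intro n
      exact (hGc.smul ((h.vc v).comp (continuous_const.mul continuous_id))).aestronglyMeasurable
    · intro n
      refine Eventually.of_forall fun w => ?_
      rw [norm_smul, h.nV]
    · refine Eventually.of_forall fun w => ?_
      have h1 : Tendsto (fun n : ℕ => 2 * Real.pi * (1 / ((n : ℝ) + 1)) * w) atTop (𝓝 0) := by
        have := (hε0.const_mul (2 * Real.pi)).mul_const w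
        simpa using this
      have h2 := ((h.vc v).tendsto 0).comp h1
      rw [h.V_zero] at h2
      exact h2.const_smul _
  have hI : (∫ w, G w • v) = v := by
    rw [integral_smul_const]
    have h1 := hG 0
    rw [hk] at h1
    simp only [mul_zero, Complex.ofReal_zero, Complex.exp_zero, mul_one] at h1
    rw [← h1, one_smul]
  rw [hI] at hlim
  obtain ⟨j, hj⟩ := ((tendsto_iff_norm_sub_tendsto_zero.1 hlim).eventually_lt_const hε).exists
  refine ⟨_, hn j, ?_⟩
  have h1 := h.conv (k.sc _ (hn j)).B hGc hGi (2 * Real.pi * (1 / ((j : ℝ) + 1))) (fun x => by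
    show k.f (1 / ((j : ℝ) + 1) * x) = _
    rw [hG]
    congr 1
    ext w
    congr 3
    push_cast
    ring) v
  exact (h1.sub_const v).norm.eventually_lt_const hj

lemma cut0 : ∃ X : TF, X.f 0 = 1 := by
  obtain ⟨χ, hχs, hχc, hχn, hχ1, -⟩ := ModData.gd_cutoff ({0} : Set ℝ) isCompact_singleton
  exact ⟨⟨χ, hχs, hχc⟩, hχ1 0 rfl⟩

/-- the modular conjugations converge -/
lemma Si.jx (h : Si N E V) {m : ℕ} {x : H →L[ℂ] H} (hx : x ∈ N m) {ε : ℝ} (hε : 0 < ε) :
    ∃ w, ∀ᶠ n in atTop, ‖(E n).J (x ξ) - w‖ < ε := by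
  obtain ⟨X, hX⟩ := cut0
  obtain ⟨δ, hδ, h1⟩ := h.tight X.r (by
    show conj (X.f (-0)) = 1
    rw [neg_zero, hX, map_one]) (x ξ) (half_pos hε)
  obtain ⟨w, hw⟩ := h.cv ((X.sc δ hδ).m _ (exs (1 / 2))) (star x ξ)
  refine ⟨w, ?_⟩
  filter_upwards [h1, (tendsto_iff_norm_sub_tendsto_zero.1 hw).eventually_lt_const (half_pos hε),
    eventually_ge_atTop m] with n a1 a2 a3
  have hxn : star x ∈ N n := star_mem (h.up m n a3 x hx)
  have e1 := (E n).kms (star x) hxn ((X.sc δ hδ).m _ (exs (1 / 2))).B (X.sc δ hδ).B (fun y => by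
    have e : (1 : ℝ) / 2 * y = y / 2 := by ring
    show ((Real.exp (1 / 2 * y) : ℝ) : ℂ) * (X.sc δ hδ).f y = _
    rw [e]
    rfl)
  rw [star_star] at e1
  have e3 : (E n).Th (X.sc δ hδ).B ((E n).J (x ξ)) - (E n).J (x ξ) =
      (E n).J ((E n).Th (X.r.sc δ hδ).B (x ξ) - x ξ) := by
    have e5 : reflB (X.r.sc δ hδ).B = (X.sc δ hδ).B := by
      ext y
      show conj (conj (X.f (-(δ * -y)))) = X.f (δ * y)
      rw [mul_neg, neg_neg, Complex.conj_conj]
    rw [map_sub, (E n).J_Th, e5]
  have e4 : ‖(E n).Th (X.sc δ hδ).B ((E n).J (x ξ)) - (E n).J (x ξ)‖ < ε / 2 := by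
    rw [e3, LinearIsometryEquiv.norm_map]
    exact a1
  rw [e1] at e4
  calc ‖(E n).J (x ξ) - w‖ = ‖((E n).Th ((X.sc δ hδ).m _ (exs (1 / 2))).B (star x ξ) - w) -
        ((E n).Th ((X.sc δ hδ).m _ (exs (1 / 2))).B (star x ξ) - (E n).J (x ξ))‖ := by
        congr 1; abel
    _ ≤ _ := norm_sub_le _ _
    _ < ε / 2 + ε / 2 := add_lt_add a2 e4
    _ = ε := add_halves ε

lemma Si.jl (h : Si N E V) (v : H) : ∃ w, Tendsto (fun n => (E n).J v) atTop (𝓝 w) := by
  refine cauchySeq_tendsto_of_complete ?_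
  rw [Metric.cauchySeq_iff]
  intro ε hε
  obtain ⟨y, hy, hyv⟩ := (Metric.mem_closure_iff.1 ((E 0).cyc v)) (ε / 4) (by positivity)
  obtain ⟨x, hx, hxy⟩ := hy
  obtain ⟨w, hw⟩ := h.jx hx (show (0 : ℝ) < ε / 4 by positivity)
  obtain ⟨K, hK⟩ := eventually_atTop.1 hw
  have key : ∀ n ≥ K, dist ((E n).J v) w < ε / 2 := by
    intro n hn
    have h1 : dist ((E n).J v) ((E n).J y) < ε / 4 := by
      rw [LinearIsometryEquiv.dist_map]
      exact hyv
    have h2 : dist ((E n).J y) w < ε / 4 := by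
      rw [dist_eq_norm, ← hxy]
      exact hK n hn
    calc dist ((E n).J v) w ≤ dist ((E n).J v) ((E n).J y) + dist ((E n).J y) w :=
          dist_triangle _ _ _
      _ < ε / 4 + ε / 4 := add_lt_add h1 h2
      _ = ε / 2 := by ring
  refine ⟨K, fun m hm n hn => ?_⟩
  calc dist ((E m).J v) ((E n).J v) ≤ dist ((E m).J v) w + dist ((E n).J v) w :=
        dist_triangle_right _ _ _
    _ < ε / 2 + ε / 2 := add_lt_add (key m hm) (key n hn)
    _ = ε := add_halves ε

/-- **Separating vectors for the limit algebra.** -/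
theorem Si.sep (h : Si N E V) {M : VonNeumannAlgebra H}
    (hM : ∀ X ∈ M, ∀ Y : H →L[ℂ] H, (∀ n, Y ∈ (N n).commutant) → X * Y = Y * X) {X : H →L[ℂ] H}
    (hX : X ∈ M) (h0 : X ξ = 0) : X = 0 := by
  choose J hJ using h.jl
  have hJi : ∀ v w, ‖J v - J w‖ = ‖v - w‖ := by
    intro v w
    refine tendsto_nhds_unique ((hJ v).sub (hJ w)).norm ?_
    have e : ∀ n, ‖(E n).J v - (E n).J w‖ = ‖v - w‖ := fun n => by
      rw [← map_sub, LinearIsometryEquiv.norm_map]
    simp only [e]
    exact tendsto_const_nhds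
  have hJc : Continuous J := by
    refine (LipschitzWith.of_dist_le_mul (K := 1) fun x y => ?_).continuous
    rw [dist_eq_norm, dist_eq_norm, hJi, NNReal.coe_one, one_mul]
  have hJJ : ∀ v, J (J v) = v := by
    intro v
    refine tendsto_nhds_unique (hJ (J v)) ?_
    rw [tendsto_iff_norm_sub_tendsto_zero]
    have e : ∀ n, ‖(E n).J (J v) - v‖ = ‖(E n).J v - J v‖ := fun n => by
      have e1 : (E n).J (J v) - v = (E n).J (J v - (E n).J v) := by
        rw [map_sub, (E n).J_J]
      rw [e1, LinearIsometryEquiv.norm_map, norm_sub_rev]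
    simp only [e]
    exact tendsto_iff_norm_sub_tendsto_zero.1 (hJ v)
  have key : ∀ x ∈ N 0, X (J (x ξ)) = 0 := by
    intro x hx
    have hlim : ∀ z, Tendsto (fun n => jconj (E n).J x z) atTop (𝓝 (J (x (J z)))) := by
      intro z
      have h1 : Tendsto (fun n => (E n).J (x ((E n).J z)) - (E n).J (x (J z))) atTop (𝓝 0) := by
        refine squeeze_zero_norm (a := fun n => ‖x‖ * ‖(E n).J z - J z‖) (fun n => ?_) ?_
        · rw [← map_sub, LinearIsometryEquiv.norm_map, ← map_sub]
          exact x.le_opNorm _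
        · have := tendsto_iff_norm_sub_tendsto_zero.1 (hJ z)
          simpa using this.const_mul ‖x‖
      have h2 := h1.add (hJ (x (J z)))
      rw [zero_add] at h2
      refine h2.congr fun n => ?_
      rw [sub_add_cancel]
      rfl
    let x' : H →L[ℂ] H := continuousLinearMapOfTendsto (fun n => jconj (E n).J x)
      (f := fun z => J (x (J z))) (tendsto_pi_nhds.2 hlim)
    have hx' : ∀ z, x' z = J (x (J z)) := fun z => rfl
    have hc : ∀ m, x' ∈ (N m).commutant := by
      intro m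
      rw [VonNeumannAlgebra.mem_commutant_iff]
      intro g hg
      ext z
      show g (x' z) = x' (g z)
      rw [hx', hx']
      refine tendsto_nhds_unique ((g.continuous.tendsto _).comp (hlim z)) ?_
      refine (hlim (g z)).congr' ?_
      filter_upwards [eventually_ge_atTop m] with n hn
      have h1 := (E n).J_mem x (h.up 0 n (Nat.zero_le n) x hx)
      rw [VonNeumannAlgebra.mem_commutant_iff] at h1
      have h2 := h1 g (h.up m n hn g hg)
      exact (congrArg (fun T : H →L[ℂ] H => T z) h2).symm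
    have h1 := congrArg (fun T : H →L[ℂ] H => T ξ) (hM X hX x' hc)
    have h2 : X (x' ξ) = x' (X ξ) := h1
    have h3 : J ξ = ξ := by
      refine tendsto_nhds_unique (hJ ξ) ?_
      simp only [(E _).J_xi]
      exact tendsto_const_nhds
    rw [h0, map_zero, hx', h3] at h2
    exact h2
  have hcl : IsClosed {v : H | X (J v) = 0} := isClosed_eq (X.continuous.comp hJc) continuous_const
  have hall : ∀ v, X (J v) = 0 := fun v =>
    closure_minimal (fun v hv => by
      obtain ⟨x, hx, rfl⟩ := hv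
      exact key x hx) hcl ((E 0).cyc v)
  ext z
  rw [← hJJ z, hall]
  rfl

end abs

section net

open UniformSpace (Completion)
open GF H246 H496 H755 H15
open Vale.Agent.P352.BW.L (dV)

variable {D : Type*} [NormedAddCommGroup D] [InnerProductSpace ℂ D] {Q : Theory D}
  {A : (V → V) → D → D} {𝒜 : Set V → VonNeumannAlgebra (Completion D)}
  {S : V → ℝ → Completion D →L[ℂ] Completion D}

/-- **The group law implies that the vacuum is separating for the algebra of the light cone**, if
this algebra is generated by the algebras of the parts `a·z < t`. -/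
theorem sep_of_law (N : LNm Q A 𝒜) (h : Grp0 Q 𝒜 S) (hL : Law Q S) (hA : Gen 𝒜) : SepF Q 𝒜 := by
  have hU : UStmt Q A := ublock N.toRep
  obtain ⟨a, b, ha, hb, hab⟩ := H728C.pair
  have hn : ∀ n : ℕ, (0 : ℝ) < (n : ℝ) + 1 := fun n => by positivity
  have hE : ∀ n : ℕ, Nonempty (ModData (𝒜 (Ct a ((n : ℝ) + 1))) (om Q)) := fun n =>
    N.modC ha hb hab (hn n)
  let E : ∀ n : ℕ, ModData (𝒜 (Ct a ((n : ℝ) + 1))) (om Q) := fun n => (hE n).some
  have sit : Si (fun n : ℕ => 𝒜 (Ct a ((n : ℝ) + 1))) E (dV Q) := by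
    refine ⟨fun n m hnm => N.mono _ _ fun z hz => ⟨hz.1, lt_of_lt_of_le hz.2 ?_⟩, fun s v => ?_,
      H728C.dV_cont hU N.toRep⟩
    · have : (n : ℝ) ≤ m := by exact_mod_cast hnm
      linarith
    have e : ∀ n, (E n).U s v = S a ((Real.exp (2 * Real.pi * s) - 1) / (2 * ((n : ℝ) + 1)))
        (dV Q s v) := fun n => H728C.mod_law N h hL ha hb hab (hn n) (E n) s v
    simp only [e]
    have h1 : Tendsto (fun n : ℕ => (Real.exp (2 * Real.pi * s) - 1) / (2 * ((n : ℝ) + 1))) atTop
        (𝓝 0) := by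
      have h2 := (tendsto_one_div_add_atTop_nhds_zero_nat (𝕜 := ℝ)).const_mul
        ((Real.exp (2 * Real.pi * s) - 1) / 2)
      rw [mul_zero] at h2
      refine h2.congr fun n => ?_
      have := (hn n).ne'
      field_simp
    have h3 := ((h.cont a (dV Q s v) ha).tendsto 0).comp h1
    rw [h.zero a ha] at h3
    exact h3
  intro X hX h0
  refine sit.sep (M := 𝒜 Fc) (fun X hX Y hY => hA a X Y ha hX fun t ht => ?_) hX h0
  obtain ⟨n, hn1⟩ := exists_nat_ge t
  have h1 := hY n
  rw [VonNeumannAlgebra.mem_commutant_iff] at h1 ⊢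
  intro g hg
  exact h1 g (N.mono (Ct a t) (Ct a ((n : ℝ) + 1))
    (fun z hz => ⟨hz.1, lt_of_lt_of_le hz.2 (by linarith)⟩) g hg)

/-- **The conformal group law of the null deformations is equivalent to the Bisognano-Wichmann
property of the light cone.** -/
theorem lc_iff_law (N : LNm Q A 𝒜) (h : Grp0 Q 𝒜 S) (hA : Gen 𝒜) (hl : LC Q 𝒜 → Law Q S) :
    LC Q 𝒜 ↔ Law Q S :=
  ⟨hl, fun hL => H728C.lc_of_law N h (sep_of_law N h hL hA) hL⟩

end net

end Vale.Agent.P352.BW.H299

end
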