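import Vale.Agent.P352.BW.Lz
import Vale.Agent.P352.BW.H299.Sep

/-!
# P352 BW (helper299): light cones and null deformations, with the separating vacuum from the group law
-/

set_option linter.all false

noncomputable section

open MeasureTheory Filter Topology

namespace Vale.Agent.P352.BW

open UniformSpace (Completion)
open GF H246 H496 H755 H15

variable {D : Type*} [NormedAddCommGroup D] [InnerProductSpace ℂ D]
  {Q : Theory D} {A : (V → V) → D → D} {𝒜 : Set V → VonNeumannAlgebra (Completion D)}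

/-- **Light cones and null deformations** -/
theorem main_lc2 (hG : TfGen Q) (N : LNm Q A 𝒜) :
    ∃ S : V → ℝ → Completion D →L[ℂ] Completion D, Grp1 Q 𝒜 S ∧
      (∀ a b c X, IsNull a → IsNull b → GF.mdot a b = 1 → 0 < c → Aff (𝒜 (HM.Rg a b c)) X →
        ∃ w, HasDerivAt (fun s : ℝ => S a s ((X Q.vac : D) : Completion D)) w 0) ∧
      (LC Q 𝒜 ↔ SepF Q 𝒜 ∧ Law Q S) ∧
      (Gen 𝒜 → Law Q S → SepF Q 𝒜) ∧
      (Law Q S → Orth Q ∧ (∀ G, Dif S G → ConfGen Q A G) ∧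
        ∀ a r O X, IsNull a → (∀ z ∈ O, ∀ m, |z m| ≤ r) → Aff (𝒜 O) X →
          ∃ w, HasDerivAt (fun s : ℝ => S a s ((X Q.vac : D) : Completion D)) w 0) ∧
      (LC Q 𝒜 → GeoC 𝒜 S) ∧
      (SepF Q 𝒜 → Tot1 Q → Orth Q → LC Q 𝒜) ∧
      (Huy Q 𝒜 → LC Q 𝒜) := by
  obtain ⟨S, hS⟩ := S0.grp0 (H284.s0 N hG)
  refine ⟨S, hS.grp1 hG N, fun a b c X ha hb hab hc hX => hS.toGr.dom hG N ha hb hab hc hX,
    ⟨fun h => ?_, fun h => H728C.lc_of_law N hS h.1 h.2⟩,
    fun hA hL => H299.sep_of_law N hS hL hA,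
    fun hL => ⟨H870.orth_law N hS hL, fun G hD => ?_, fun a r O X ha hO hX =>
      H614.dom hG N hS.toGr (fun a b t c L z ha hb hab hp hL' => hL a b t c L z ha hb hab hp hL')
        ha hO hX⟩, fun h => ?_,
    fun hs hT hR => H49.lc1 N hs hT hR, fun hz => H210.lc N hz.huyZ⟩
  · obtain ⟨J, hJ⟩ := h
    exact ⟨H870.sep_of_lc N hJ, fun a b t c L z ha hb hab hp hL =>
      N.lawC hG hS hJ ha hb hab t c L z hp hL⟩
  · exact H284C.confGen_of_law (fun _ _ E _ _ h => isMod_unique E h) hG N hS.toGr hD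
      (fun a b t c L z ha hb hab hp hL' => hL a b t c L z ha hb hab hp hL')
  · obtain ⟨J, hJ⟩ := h
    intro a c X ha hc
    obtain ⟨b, hb, hab⟩ := H755.exists_dual ha
    exact N.geoC hG hS hJ ha hb hab hc X

end Vale.Agent.P352.BW

end
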