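import Vale.Agent.P352.BW.H234.ModU
import Vale.Agent.P352.BW.H649.Lc
import Vale.Agent.P352.BW.Fe4

/-!
# P352 BW (helper299): modular data of the algebra of the forward light cone
-/

set_option linter.all false

noncomputable section

open MeasureTheory Filter Topology
open scoped ComplexConjugate InnerProductSpace BoundedContinuousFunction

namespace Vale.Agent.P352.BW

open Vale.Agent.P132 (ModData expB jconj)
open UniformSpace (Completion)
open GF H246 H496 H755 H15

namespace H299

/-- a cyclic vector with modular unitaries is separating -/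
theorem sep_of_isMod {H : Type*} [NormedAddCommGroup H] [InnerProductSpace ℂ H] [CompleteSpace H]
    {M : VonNeumannAlgebra H} {ξ : H} {V : ℝ → H → H} {J : H → H} (h : IsMod M ξ V J)
    (hcyc : Dense {z | ∃ X ∈ M, X ξ = z}) (X : H →L[ℂ] H) (hX : X ∈ M) (h0 : X ξ = 0) :
    X = 0 := by
  have key : ∀ Z ∈ M, Z ξ = 0 → star Z ξ = 0 := by
    intro Z hZ hz
    have h1 : ∀ y, ⟪y, V 0 (J (star Z ξ))⟫_ℂ = 0 := by
      intro y
      obtain ⟨F, hF1, hF2, hF3⟩ := h.kms Z hZ y
      obtain ⟨C, hC⟩ := hF2
      have hB : H234U.Bd F := ⟨hF1, C, fun z hz => hC z hz.1 hz.2⟩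
      have hV0 : ∀ t, V t 0 = 0 := by
        intro t
        have h2 := h.inn t 0 0
        rw [inner_zero_left] at h2
        exact inner_self_eq_zero.1 h2
      have h3 := H234U.uniq0 hB (fun t => by rw [(hF3 t).1, hz, hV0, inner_zero_right])
        (H234U.low_mem 0)
      rw [(hF3 0).2] at h3
      exact h3
    have h2 : V 0 (J (star Z ξ)) = 0 := by
      have := h1 (V 0 (J (star Z ξ)))
      exact inner_self_eq_zero.1 this
    have h3 := h.inn 0 (J (star Z ξ)) (J (star Z ξ))
    rw [h2, inner_zero_left, h.jinn] at h3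
    exact inner_self_eq_zero.1 h3.symm
  have h1 : ∀ z, star X z = 0 := by
    have hc : IsClosed {z | star X z = 0} :=
      isClosed_eq (star X).continuous continuous_const
    have hd : {z | ∃ Y ∈ M, Y ξ = z} ⊆ {z | star X z = 0} := by
      rintro _ ⟨Y, hY, rfl⟩
      have h2 := key (star Y * X) (mul_mem (star_mem hY) hX) (by
        show star Y (X ξ) = 0
        rw [h0, map_zero])
      rw [star_mul, star_star] at h2
      exact h2
    intro z
    have := hc.closure_subset_iff.2 hd
    rw [hcyc.closure_eq] at this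
    exact this (Set.mem_univ z)
  have h2 : star X = 0 := by
    ext z
    exact h1 z
  have h3 := congrArg star h2
  rwa [star_star, star_zero] at h3

variable {D : Type*} [NormedAddCommGroup D] [InnerProductSpace ℂ D] {Q : Theory D}
  {A : (V → V) → D → D} {𝒜 : Set V → VonNeumannAlgebra (Completion D)}

theorem fc_ne : Fc.Nonempty := by
  obtain ⟨a, b, ha, hb, hab⟩ := exists_pair'
  obtain ⟨z, hz⟩ := Lc.ct_ne ha hb hab one_pos
  exact ⟨z, hz.1⟩

/-- modular data of the algebra of the forward light cone, from modular unitaries -/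
theorem modF (N : LNm Q A 𝒜) {V : ℝ → Completion D → Completion D}
    {J : Completion D → Completion D} (h : IsMod (𝒜 Fc) (om Q) V J) :
    ∃ E : ModData (𝒜 Fc) (om Q), ∀ s z, E.U s z = V s z := by
  have hc := N.cyc Lc.isOpen_fc fc_ne
  obtain ⟨E⟩ := Vale.Agent.P132.exists_modData (𝒜 Fc) (om Q) (H732G.norm_om Q) hc (sep_of_isMod h hc)
  exact ⟨E, fun s z => (isMod_unique E h s z).symm⟩

end H299

end Vale.Agent.P352.BW

end
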