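import Vale.Agent.P352.BW.H49.Or1Defs

/-!
# P352 BW (helper299): the definition `BW.Tot1` is the one of helper49 (H49/Or1Defs)
-/
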