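import Vale.Agent.P352.BW.Mon
import Vale.Agent.P352.BW.H49.Or
import Vale.Agent.P352.BW.H870.OrIff
import Vale.Agent.P352.BW.H299.TotDefs

/-!
# P352 BW (helper299): the modular unitaries of the light cone, from the two-point functions, if the
vacuum and the one-field vectors are total (after helper49, H49/Or)
-/

set_option linter.all false

noncomputable section

open MeasureTheory SchwartzMap Filter Topology
open scoped SchwartzMap ComplexConjugate InnerProductSpace BoundedContinuousFunction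

namespace Vale.Agent.P352.BW.H299

open Vale.Agent.P132 (ModData expB exists_modData)
open UniformSpace (Completion)
open GF H246 H496 H755 H15
open Vale.Agent.P352.BW.H49 (ten_td fz_td adj_td Adj ct_sum coe_op phase Dat pct test_rf)

section abs

variable {H : Type*} [NormedAddCommGroup H] [InnerProductSpace ℂ H] [CompleteSpace H]
variable {M : VonNeumannAlgebra H} {ξ : H} {V : ℝ → H → H}

/-- `H49.main` with the cyclic vector added to the total set -/
theorem main1 {ι : Type*} (E : ModData M ξ)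
    (inn : ∀ t x y, inner ℂ (V t x) (V t y) = inner ℂ x y)
    (add : ∀ s t x, V (s + t) x = V s (V t x)) (vac : ∀ t, V t ξ = ξ)
    (hth : ∀ t F z, V t (E.Th F z) = E.Th F (V t z)) (k x g : ι → H)
    (hm : ∀ i, ∀ F G : ℝ →ᵇ ℂ, (∀ h : ℝ, F h = Real.exp (h / 2) * G h) →
      E.Th G (k i) = E.Th F (x i))
    (hc : ∀ i, H23.Ct V (x i) (g i)) (hg : ∀ i j, inner ℂ (g i) (g j) = inner ℂ (k i) (k j))
    (hd : ∀ y, inner ℂ y ξ = 0 → (∀ i, inner ℂ y (k i) = 0) → y = 0) (t : ℝ) (z : H) :
    V t z = E.U t z := by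
  -- the vacuum entries
  have hgx : ∀ i, inner ℂ ξ (g i) = inner ℂ ξ (x i) := by
    intro i
    obtain ⟨φ, C, φd, φc, φb, φv⟩ := (hc i).ex
    have hx : ∀ t y, inner ℂ ξ (V t y) = inner ℂ ξ y := by
      intro t y
      have := inn t ξ y
      rwa [vac] at this
    have hB : H234U.Bd fun z => (inner ℂ ξ (φ z) : ℂ) - inner ℂ ξ (x i) := by
      refine ⟨⟨(φd ξ).sub (differentiableOn_const _), ?_⟩, ‖ξ‖ * C + ‖(inner ℂ ξ (x i) : ℂ)‖,
        fun z hz => ?_⟩
      · rw [H234U.closure_So]
        exact (φc ξ).sub continuousOn_const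
      · refine (norm_sub_le _ _).trans (add_le_add ?_ le_rfl)
        exact (norm_inner_le_norm _ _).trans
          (mul_le_mul_of_nonneg_left (φb z hz.1 hz.2) (norm_nonneg _))
    have h1 := H234U.uniq0 hB (fun t => by
      show (inner ℂ ξ (φ t) : ℂ) - inner ℂ ξ (x i) = 0
      rw [(φv t).1, hx, sub_self]) (H234U.low_mem 0)
    have h2 : (inner ℂ ξ (φ (((0 : ℝ) : ℂ) - Complex.I / 2)) : ℂ) - inner ℂ ξ (x i) = 0 := h1
    rw [(φv 0).2, hx] at h2
    exact sub_eq_zero.1 h2
  have hkx : ∀ i, inner ℂ ξ (k i) = inner ℂ ξ (x i) := by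
    intro i
    have h0 := hm i (Mon.gs 1 one_pos) (Mon.fs 1 one_pos) fun h => by
      rw [Mon.gs_apply, Mon.fs_apply, ← Complex.ofReal_mul, mul_one_div]
    have h1 := congrArg (fun v => (inner ℂ ξ v : ℂ)) h0
    rw [← Mon.inner_of_star E (Mon.star_fs 1 one_pos), ← Mon.inner_of_star E
      (Mon.star_gs 1 one_pos), E.Th_xi, E.Th_xi, inner_smul_left, inner_smul_left,
      Mon.fs_apply, Mon.gs_apply] at h1
    have e : Real.exp (0 / 2) / (Real.exp 0 + 1) = 1 / (Real.exp 0 + 1) := by
      rw [zero_div, Real.exp_zero]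
    rw [e] at h1
    refine mul_left_cancel₀ ?_ h1
    rw [Complex.conj_ofReal]
    have : (0 : ℝ) < 1 / (Real.exp 0 + 1) := by positivity
    exact_mod_cast this.ne'
  have hgk : ∀ i, inner ℂ ξ (g i) = inner ℂ ξ (k i) := fun i => (hgx i).trans (hkx i).symm
  refine H49.main (ι := Option ι) E inn add hth (fun i => i.elim ξ k) (fun i => i.elim ξ x)
    (fun i => i.elim ξ g) ?_ ?_ ?_ ?_ t z
  · rintro (_ | i) F G hFG
    · show E.Th G ξ = E.Th F ξ
      have h1 := hFG 0
      rw [zero_div, Real.exp_zero, Complex.ofReal_one, one_mul] at h1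
      rw [E.Th_xi, E.Th_xi, h1]
    · exact hm i F G hFG
  · rintro (_ | i)
    · refine ⟨fun _ => ξ, ‖ξ‖, fun y => differentiableOn_const _, fun y => continuousOn_const,
        fun z _ _ => le_rfl, fun t => ⟨(vac t).symm, (vac t).symm⟩⟩
    · exact hc i
  · rintro (_ | i) (_ | j)
    · rfl
    · exact hgk j
    · show inner ℂ (g i) ξ = inner ℂ (k i) ξ
      rw [← inner_conj_symm, hgk i, inner_conj_symm]
    · exact hg i j
  · rw [Submodule.dense_iff_topologicalClosure_eq_top, Submodule.topologicalClosure_eq_top_iff,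
      Submodule.eq_bot_iff]
    intro y hy
    have h1 : ∀ i : Option ι, (inner ℂ y (i.elim ξ k) : ℂ) = 0 := fun i => by
      have h2 := (Submodule.mem_orthogonal _ _).1 hy (i.elim ξ k)
        (Submodule.subset_span ⟨i, rfl⟩)
      rw [← inner_conj_symm, h2, map_zero]
    exact hd y (h1 none) fun i => h1 (some i)

end abs

variable {D : Type*} [NormedAddCommGroup D] [InnerProductSpace ℂ D] {Q : Theory D}
  {A : (V → V) → D → D} {𝒜 : Set V → VonNeumannAlgebra (Completion D)}

theorem den1 (hT : Tot1 Q) {z : Completion D} (h0 : (inner ℂ z (om Q) : ℂ) = 0) (h : ∀ k d Φ μ f, IsTd Q k d Φ → In Fc f →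
    (inner ℂ z ((Φ μ f Q.vac : D) : Completion D) : ℂ) = 0) : z = 0 := by
  set S : Submodule ℂ D :=
    { carrier := {v | (inner ℂ z (v : Completion D) : ℂ) = 0}
      add_mem' := fun {x y} hx hy => by
        show (inner ℂ z ((x + y : D) : Completion D) : ℂ) = 0
        rw [Completion.coe_add, inner_add_right]
        rw [show (inner ℂ z (x : Completion D) : ℂ) = 0 from hx,
          show (inner ℂ z (y : Completion D) : ℂ) = 0 from hy, add_zero]
      zero_mem' := by
        show (inner ℂ z ((0 : D) : Completion D) : ℂ) = 0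
        rw [Completion.coe_zero, inner_zero_right]
      smul_mem' := fun c x hx => by
        show (inner ℂ z ((c • x : D) : Completion D) : ℂ) = 0
        rw [Completion.coe_smul, inner_smul_right]
        rw [show (inner ℂ z (x : Completion D) : ℂ) = 0 from hx, mul_zero] } with hS
  have hd : Dense (S : Set D) := hT S h0 fun k d Φ μ f hΦ hf hfc =>
    H49.rs1 Lc.isOpen_fc ⟨bas o 1, by
      refine ⟨?_, ?_⟩
      · rw [Reg1.md]; simp [bas, o]
      · simp [bas, o]⟩ (hΦ.1 μ) (fun f hf => h k d Φ μ f hΦ hf) hf hfc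
  have hall : ∀ v : D, (inner ℂ z (v : Completion D) : ℂ) = 0 := by
    intro v
    have hcl : IsClosed {v : D | (inner ℂ z (v : Completion D) : ℂ) = 0} :=
      isClosed_eq (continuous_const.inner (Completion.continuous_coe D)) continuous_const
    exact closure_minimal (fun v hv => hv) hcl (hd v)
  have hz : (inner ℂ z z : ℂ) = 0 := by
    refine Completion.induction_on (p := fun w => (inner ℂ z w : ℂ) = 0) z ?_ hall
    exact isClosed_eq (continuous_const.inner continuous_id) continuous_const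
  exact inner_self_eq_zero.1 hz


/-- **The modular unitaries of the light cone from the two-point functions.** -/
theorem lcE1 (N : LNm Q A 𝒜) (hO : L.OStmt Q A) (hT : Tot1 Q) (hR : Orth Q)
    (E : ModData (𝒜 Fc) (om Q)) (t : ℝ) (z : Completion D) : L.dV Q t z = E.U t z := by
  have R := N.toRep
  have hU : UStmt Q A := ublock R
  have T1' := T.t1 Q A R
  choose W hW using fun t => L.dV_lin hU t
  have hnat : ∀ t, (∀ F z, L.dV Q t (E.Th F z) = E.Th F (L.dV Q t z)) ∧
      ∀ z, L.dV Q t (E.J z) = E.J (L.dV Q t z) := by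
    intro t
    have h := T.n _ (om Q) E (W t) (by rw [hW, L.dV_vac hU]) ?_ ?_
    · simp only [hW] at h
      exact h
    · intro X hX
      obtain ⟨Y, hY, h1⟩ := (N.dilF (Real.exp_pos _)).1 X hX
      exact ⟨Y, hY, fun z => by rw [hW, hW]; exact h1 z⟩
    · intro Y hY
      obtain ⟨X, hX, h1⟩ := (N.dilF (Real.exp_pos _)).2 Y hY
      exact ⟨X, hX, fun z => by rw [hW, hW]; exact h1 z⟩
  refine main1 (ι := {p // Dat Q p}) E (fun t x y => by rw [← hW, ← hW, (W t).inner_map_map])
    (fun s t x => (L.dV_add hU s t x).symm) (fun t => L.dV_vac hU t)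
    (fun t F z => (hnat t).1 F z)
    (fun i => E.J i.1.1) (fun i => i.1.2.1) (fun i => i.1.2.2) ?_ ?_ ?_ ?_ t z
  · intro i
    obtain ⟨k, d, Φ, Ψ, c, f, hΦ, hΨ, hadj, hf, e1, e2, e3⟩ := i.2
    rw [e1, e2]
    exact (T.m _ Q.vac E (T.op Φ c f) (T.op Ψ (fun μ => conj (c μ)) (GF.bar f))).1
      (T.afs_of (fun v w => hadj c f v w hf.1)
        (T.H732W.aff_sum (fun μ => N.fld _ _ f (hΦ.1 μ) hf) c))
  · intro i
    obtain ⟨k, d, Φ, Ψ, c, f, hΦ, hΨ, hadj, hf, e1, e2, e3⟩ := i.2
    have h1 : ∀ μ, H23.Ct (L.dV Q) ((Φ μ f Q.vac : D) : Completion D)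
        (Complex.exp (Complex.I * Real.pi * d) • ((Φ μ (L.rf f) Q.vac : D) : Completion D)) := by
      intro μ
      obtain ⟨G, g1, g2, g3, g4⟩ := (hO R d (Φ μ) f (fz_td hΦ μ)).1 hf
      exact T.ct_of g1 g2 g3 fun t => by
        rw [L.dV_coe hU, ← L.dD_smul hU]
        exact g4 t
    have h2 := ct_sum W hW c h1
    rw [e2, e3, coe_op, coe_op, Finset.smul_sum]
    simpa only [smul_comm (Complex.exp (Complex.I * Real.pi * d))] using h2
  · intro i j
    obtain ⟨k, d, Φ, Ψ, c, f, hΦ, hΨ, hadj, hf, e1, e2, e3⟩ := i.2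
    obtain ⟨k', d', Φ', Ψ', c', f', hΦ', hΨ', hadj', hf', e1', e2', e3'⟩ := j.2
    have hp := pct N (ten_td hΦ) (ten_td hΨ) hadj c hf.1 hf.2.1 (ten_td hΦ') (ten_td hΨ') hadj' c'
      hf'.1 hf'.2.1
    rw [E.inner_J_J, e1, e1', e3, e3', Completion.inner_coe, ← hp, inner_smul_left, inner_smul_right,
      Completion.inner_coe, ← mul_assoc]
    by_cases hn : ∃ n : ℤ, d - k - (d' - k') = 2 * n
    · obtain ⟨n, hn⟩ := hn
      rw [phase hn]
    · have h0 : (inner ℂ (T.op Φ c (L.rf f) Q.vac) (T.op Φ' c' (L.rf f') Q.vac) : ℂ) = 0 := by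
        unfold T.op
        rw [sum_inner]
        refine Finset.sum_eq_zero fun μ _ => ?_
        rw [inner_sum]
        refine Finset.sum_eq_zero fun μ' _ => ?_
        rw [inner_smul_left, inner_smul_right, hR k d Φ μ _ k' d' Φ' μ' _ hΦ hΦ'
          (test_rf hf.1) (test_rf hf'.1) fun n hn' => hn ⟨n, hn'⟩, mul_zero, mul_zero]
      rw [h0, mul_zero, mul_zero]
  · intro y hy0 hy
    have h1 : ∀ p, Dat Q p → (inner ℂ (E.J y) p.1 : ℂ) = 0 := by
      intro p hp
      have h2 := hy ⟨p, hp⟩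
      have h3 : (inner ℂ y (E.J p.1) : ℂ) = 0 := h2
      have h4 : (inner ℂ (E.J p.1) y : ℂ) = 0 := by
        rw [← inner_conj_symm, h3, map_zero]
      rwa [← E.J_J y, E.inner_J_J] at h4
    have h3 : E.J y = 0 := by
      refine den1 hT ?_ fun k d Ψ μ f hΨ hf => ?_
      · have hx : (inner ℂ (E.J y) (E.J (om Q)) : ℂ) = inner ℂ (om Q) y := E.inner_J_J _ _
        rw [E.J_xi] at hx
        rw [hx, ← inner_conj_symm, hy0, map_zero]
      obtain ⟨Φ, hΦ, hadj⟩ := adj_td R hΨ
      have h4 := h1 (_, _, _) ⟨k, d, Φ, Ψ, fun ν => if ν = μ then 1 else 0, GF.bar f, hΦ, hΨ,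
        hadj.symm, T1'.ib _ _ hf, rfl, rfl, rfl⟩
      have e : T.op Ψ (fun ν => conj (if ν = μ then (1 : ℂ) else 0)) (GF.bar (GF.bar f)) Q.vac =
          Ψ μ f Q.vac := by
        rw [T.bar_bar']
        simp [T.op, apply_ite conj]
      rw [← e]
      exact h4
    rw [← E.J_J y, h3, map_zero]

/-- **Light cones and orthogonality**: if the vacuum and the one-field vectors are total, then the
dilations are the modular unitaries of the algebra of the forward light cone and the vacuum if and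
only if the vacuum is separating for this algebra and the tensor fields whose `d - k` do not differ
by even integers are orthogonal in the vacuum. -/
theorem lc_iff1 (N : LNm Q A 𝒜) (hT : Tot1 Q) :
    (∃ J : Completion D → Completion D, IsMod (𝒜 Fc) (om Q)
      (fun t z => Ue Q (Real.exp (-(2 * Real.pi * t))) GF.one 0 z) J) ↔
    (∀ X ∈ 𝒜 Fc, X (om Q) = 0 → X = 0) ∧ Orth Q := by
  constructor
  · rintro ⟨J, hJ⟩
    exact ⟨H870.sep_of_lc N hJ, H870.orth N hJ⟩
  · rintro ⟨hs, hR⟩
    obtain ⟨E⟩ : Nonempty (ModData (𝒜 Fc) (om Q)) := by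
      refine exists_modData _ _ (H732G.norm_om Q) ?_ hs
      refine N.cyc Lc.isOpen_fc ⟨bas o 1, ?_, ?_⟩
      · rw [Reg1.md]; simp [bas, o]
      · simp [bas, o]
    refine ⟨fun z => E.J z, ?_⟩
    have h := isMod E
    have e : (fun (t : ℝ) (z : Completion D) => E.U t z) =
        fun t z => Ue Q (Real.exp (-(2 * Real.pi * t))) GF.one 0 z := by
      funext t z
      exact (lcE1 N L.o hT hR E t z).symm
    rwa [e] at h

end Vale.Agent.P352.BW.H299

end
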